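import Mathlib

/-!
# John-Nirenberg for popular classes (abstract laminar form)

`P b` is a finite family of measurable sets (dyadic intervals) which are popular for the
class `b`: `δ * μ J ≤ μ (E b ∩ J)`; the sets `E b` are pairwise disjoint; the union of all `P b`
is laminar.  `cnt T x` counts the classes `b` which have a popular set inside `T` through `x`.
Then `μ {x ∈ T : n ≤ cnt T x} ≤ 2 ^ (-(n / K)) * μ T` for `K ≥ 2 / δ`.
-/

open MeasureTheory Set
open scoped ENNReal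

namespace Vale.Agent.P112.H30

variable {X β : Type*}

/-- two sets are nested or disjoint -/
def Nd (J J' : Set X) : Prop := J ⊆ J' ∨ J' ⊆ J ∨ Disjoint J J'

theorem Nd.symm {J J' : Set X} (h : Nd J J') : Nd J' J := by
  rcases h with h | h | h
  · exact Or.inr (Or.inl h)
  · exact Or.inl h
  · exact Or.inr (Or.inr h.symm)

/-- maximal elements of a finite laminar family: pairwise disjoint, same union -/
theorem exists_maximal_cover (S : Finset (Set X)) (hS : ∀ J ∈ S, ∀ J' ∈ S, Nd J J') :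
    ∃ M : Finset (Set X), M ⊆ S ∧ (∀ J ∈ S, ∃ J' ∈ M, J ⊆ J') ∧
      (∀ J ∈ M, ∀ J' ∈ M, J ≠ J' → Disjoint J J') ∧
      (∀ J ∈ M, ∀ J' ∈ S, J ⊆ J' → J' = J) := by
  classical
  refine ⟨S.filter (fun J => Maximal (· ∈ S) J), Finset.filter_subset _ _, ?_, ?_, ?_⟩
  · intro J hJ
    obtain ⟨m, hm, hmax⟩ := S.exists_le_maximal hJ
    exact ⟨m, Finset.mem_filter.2 ⟨hmax.prop, hmax⟩, hm⟩
  · intro J hJ J' hJ' hne
    rw [Finset.mem_filter] at hJ hJ'
    rcases hS J hJ.1 J' hJ'.1 with h | h | h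
    · exact absurd (hJ.2.eq_of_le hJ'.1 h) hne
    · exact absurd (hJ'.2.eq_of_le hJ.1 h).symm hne
    · exact h
  · intro J hJ J' hJ' hsub
    rw [Finset.mem_filter] at hJ
    exact (hJ.2.eq_of_le hJ' hsub).symm

/-- a finite nonempty family of pairwise nested sets has a smallest element -/
theorem exists_min_chain (S : Finset (Set X)) (hne : S.Nonempty)
    (hS : ∀ J ∈ S, ∀ J' ∈ S, J ⊆ J' ∨ J' ⊆ J) : ∃ J ∈ S, ∀ J' ∈ S, J ⊆ J' := by
  obtain ⟨m, hm⟩ := S.exists_minimal hne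
  refine ⟨m, hm.prop, fun J' hJ' => ?_⟩
  rcases hS m hm.prop J' hJ' with h | h
  · exact h
  · exact (hm.eq_of_le hJ' h).ge

open Classical in
/-- classes with a popular set inside `T` through `x` -/
noncomputable def cls (B : Finset β) (P : β → Finset (Set X)) (T : Set X) (x : X) : Finset β :=
  B.filter (fun b => ∃ J ∈ P b, J ⊆ T ∧ x ∈ J)

/-- number of classes with a popular set inside `T` through `x` -/
noncomputable def cnt (B : Finset β) (P : β → Finset (Set X)) (T : Set X) (x : X) : ℕ :=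
  (cls B P T x).card

open Classical in
/-- classes with a popular set between `J` and `T` -/
noncomputable def clsA (B : Finset β) (P : β → Finset (Set X)) (T : Set X) (J : Set X) :
    Finset β :=
  B.filter (fun b => ∃ J' ∈ P b, J' ⊆ T ∧ J ⊆ J')

theorem mem_cls {B : Finset β} {P : β → Finset (Set X)} {T : Set X} {x : X} {b : β} :
    b ∈ cls B P T x ↔ b ∈ B ∧ ∃ J ∈ P b, J ⊆ T ∧ x ∈ J := by
  classical
  simp [cls]

theorem mem_clsA {B : Finset β} {P : β → Finset (Set X)} {T J : Set X} {b : β} :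
    b ∈ clsA B P T J ↔ b ∈ B ∧ ∃ J' ∈ P b, J' ⊆ T ∧ J ⊆ J' := by
  classical
  simp [clsA]

theorem clsA_subset_cls {B : Finset β} {P : β → Finset (Set X)} {T J : Set X} {x : X}
    (hx : x ∈ J) : clsA B P T J ⊆ cls B P T x := by
  intro b hb
  rw [mem_clsA] at hb
  rw [mem_cls]
  obtain ⟨hbB, J', hJ', h1, h2⟩ := hb
  exact ⟨hbB, J', hJ', h1, h2 hx⟩

/-- if every class of a nonempty family `C` has a popular set inside `T` through `x` which
satisfies `Q`, there is one such set below all of them -/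
theorem exists_bottom {B : Finset β} {P : β → Finset (Set X)}
    (hlam : ∀ b ∈ B, ∀ b' ∈ B, ∀ J ∈ P b, ∀ J' ∈ P b', Nd J J')
    (C : Finset β) (hCB : C ⊆ B) (hne : C.Nonempty) (T : Set X) (x : X) (Q : Set X → Prop)
    (hC : ∀ b ∈ C, ∃ J ∈ P b, J ⊆ T ∧ x ∈ J ∧ Q J) :
    ∃ J, (∃ b ∈ B, J ∈ P b) ∧ J ⊆ T ∧ x ∈ J ∧ Q J ∧ C ⊆ clsA B P T J := by
  classical
  choose! f hf using hC
  obtain ⟨J, hJ, hmin⟩ := exists_min_chain (C.image f) (hne.image f) (by
    intro J hJ J' hJ'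
    rw [Finset.mem_image] at hJ hJ'
    obtain ⟨b, hb, rfl⟩ := hJ
    obtain ⟨b', hb', rfl⟩ := hJ'
    rcases hlam b (hCB hb) b' (hCB hb') _ (hf b hb).1 _ (hf b' hb').1 with h | h | h
    · exact Or.inl h
    · exact Or.inr h
    · exact absurd (hf b' hb').2.2.1 (Set.disjoint_left.1 h (hf b hb).2.2.1))
  obtain ⟨b, hb, rfl⟩ := Finset.mem_image.1 hJ
  refine ⟨f b, ⟨b, hCB hb, (hf b hb).1⟩, (hf b hb).2.1, (hf b hb).2.2.1, (hf b hb).2.2.2, ?_⟩
  intro c hc
  rw [mem_clsA]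
  exact ⟨hCB hc, f c, (hf c hc).1, (hf c hc).2.1, hmin _ (Finset.mem_image_of_mem f hc)⟩

variable [MeasurableSpace X] {μ : Measure X}

/-- the union of the popular sets of one class inside `T` -/
theorem measure_union_popular {μ : Measure X} (E : Set X)
    (δ : ℝ≥0∞) (S : Finset (Set X)) (hS : ∀ J ∈ S, ∀ J' ∈ S, Nd J J')
    (hmeas : ∀ J ∈ S, MeasurableSet J)
    (hpop : ∀ J ∈ S, δ * μ J ≤ μ (E ∩ J)) (T : Set X) (hT : ∀ J ∈ S, J ⊆ T) :
    δ * μ (⋃ J ∈ S, J) ≤ μ (E ∩ T) := by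
  classical
  obtain ⟨M, hMS, hcov, hdis, -⟩ := exists_maximal_cover S hS
  have hU : (⋃ J ∈ S, J) ⊆ ⋃ J ∈ M, J := by
    intro x hx
    simp only [Set.mem_iUnion, exists_prop] at hx ⊢
    obtain ⟨J, hJ, hxJ⟩ := hx
    obtain ⟨J', hJ', hsub⟩ := hcov J hJ
    exact ⟨J', hJ', hsub hxJ⟩
  calc δ * μ (⋃ J ∈ S, J) ≤ δ * μ (⋃ J ∈ M, J) := by gcongr
    _ ≤ δ * ∑ J ∈ M, μ J := by gcongr; exact measure_biUnion_finset_le M _
    _ = ∑ J ∈ M, δ * μ J := Finset.mul_sum _ _ _
    _ ≤ ∑ J ∈ M, μ (E ∩ J) := Finset.sum_le_sum fun J hJ => hpop J (hMS hJ)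
    _ = ∑ J ∈ M, (μ.restrict E) J := by
        refine Finset.sum_congr rfl fun J hJ => ?_
        rw [Measure.restrict_apply (hmeas J (hMS hJ)), Set.inter_comm]
    _ = (μ.restrict E) (⋃ J ∈ M, J) := by
        rw [measure_biUnion_finset]
        · intro J hJ J' hJ' hne
          exact hdis J hJ J' hJ' hne
        · exact fun J hJ => hmeas J (hMS hJ)
    _ = μ ((⋃ J ∈ M, J) ∩ E) :=
        Measure.restrict_apply (Finset.measurableSet_biUnion M fun J hJ => hmeas J (hMS hJ))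
    _ ≤ μ (E ∩ T) := by
        apply measure_mono
        rintro x ⟨hx, hxE⟩
        simp only [Set.mem_iUnion, exists_prop] at hx
        obtain ⟨J, hJ, hxJ⟩ := hx
        exact ⟨hxE, hT J (hMS hJ) hxJ⟩

/-- total measure of the unions of popular sets inside `T` -/
theorem sum_measure_union {μ : Measure X} (B : Finset β) (P : β → Finset (Set X))
    (E : β → Set X) (δ : ℝ≥0∞)
    (hlam : ∀ b ∈ B, ∀ b' ∈ B, ∀ J ∈ P b, ∀ J' ∈ P b', Nd J J')
    (hmeas : ∀ b ∈ B, ∀ J ∈ P b, MeasurableSet J)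
    (hE : ∀ b ∈ B, MeasurableSet (E b))
    (hdis : ∀ b ∈ B, ∀ b' ∈ B, b ≠ b' → Disjoint (E b) (E b'))
    (hpop : ∀ b ∈ B, ∀ J ∈ P b, δ * μ J ≤ μ (E b ∩ J)) (T : Set X) (hT : MeasurableSet T) :
    δ * ∑ b ∈ B, μ (⋃ J ∈ {J ∈ (P b : Set (Set X)) | J ⊆ T}, J) ≤ μ T := by
  classical
  rw [Finset.mul_sum]
  calc ∑ b ∈ B, δ * μ (⋃ J ∈ {J ∈ (P b : Set (Set X)) | J ⊆ T}, J)
      ≤ ∑ b ∈ B, μ (E b ∩ T) := by
        refine Finset.sum_le_sum fun b hb => ?_
        have := measure_union_popular (μ := μ) (E b) δ ((P b).filter (fun J => J ⊆ T))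
          (fun J hJ J' hJ' => hlam b hb b hb J (Finset.mem_filter.1 hJ).1 J'
            (Finset.mem_filter.1 hJ').1)
          (fun J hJ => hmeas b hb J (Finset.mem_filter.1 hJ).1)
          (fun J hJ => hpop b hb J (Finset.mem_filter.1 hJ).1) T
          (fun J hJ => (Finset.mem_filter.1 hJ).2)
        refine le_trans (le_of_eq ?_) this
        congr 2
        ext x
        simp
    _ = μ (⋃ b ∈ B, (E b ∩ T)) := by
        rw [measure_biUnion_finset]
        · intro b hb b' hb' hne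
          exact (hdis b hb b' hb' hne).mono Set.inter_subset_left Set.inter_subset_left
        · exact fun b hb => (hE b hb).inter hT
    _ ≤ μ T := by
        apply measure_mono
        intro x hx
        simp only [Set.mem_iUnion] at hx
        obtain ⟨b, hb, hxb⟩ := hx
        exact hxb.2

/-- **John-Nirenberg for popular classes.** -/
theorem jn {μ : Measure X} (B : Finset β) (P : β → Finset (Set X))
    (E : β → Set X) (δ : ℝ≥0∞)
    (hlam : ∀ b ∈ B, ∀ b' ∈ B, ∀ J ∈ P b, ∀ J' ∈ P b', Nd J J')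
    (hmeas : ∀ b ∈ B, ∀ J ∈ P b, MeasurableSet J)
    (hE : ∀ b ∈ B, MeasurableSet (E b))
    (hdis : ∀ b ∈ B, ∀ b' ∈ B, b ≠ b' → Disjoint (E b) (E b'))
    (hpop : ∀ b ∈ B, ∀ J ∈ P b, δ * μ J ≤ μ (E b ∩ J))
    (K : ℕ) (hK0 : 0 < K) (hK : 2 ≤ δ * K) :
    ∀ (n : ℕ) (T : Set X), MeasurableSet T →
      μ {x ∈ T | n ≤ cnt B P T x} ≤ (1 / 2) ^ (n / K) * μ T := by
  classical
  intro n
  induction n using Nat.strong_induction_on with
  | _ n ih =>
  intro T hT
  rcases lt_or_ge n K with hn | hn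
  · rw [Nat.div_eq_of_lt hn, pow_zero, one_mul]
    exact measure_mono fun x hx => hx.1
  -- the stopping family
  set D : Finset (Set X) := (B.biUnion P).filter (fun J => J ⊆ T) with hD
  have hDmem : ∀ J, J ∈ D ↔ (∃ b ∈ B, J ∈ P b) ∧ J ⊆ T := by
    intro J; simp [hD]
  set S : Finset (Set X) := D.filter (fun J => J.Nonempty ∧ K ≤ (clsA B P T J).card) with hS
  have hSmem : ∀ J, J ∈ S ↔ J ∈ D ∧ J.Nonempty ∧ K ≤ (clsA B P T J).card := by
    intro J; simp [hS]
  obtain ⟨M, hMS, hcov, hMdis, hMmax⟩ := exists_maximal_cover S (by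
    intro J hJ J' hJ'
    obtain ⟨⟨b, hb, hJb⟩, -⟩ := (hDmem J).1 ((hSmem J).1 hJ).1
    obtain ⟨⟨b', hb', hJb'⟩, -⟩ := (hDmem J').1 ((hSmem J').1 hJ').1
    exact hlam b hb b' hb' J hJb J' hJb')
  have hMT : ∀ J ∈ M, J ⊆ T := fun J hJ => ((hDmem J).1 ((hSmem J).1 (hMS hJ)).1).2
  have hMmeas : ∀ J ∈ M, MeasurableSet J := by
    intro J hJ
    obtain ⟨⟨b, hb, hJb⟩, -⟩ := (hDmem J).1 ((hSmem J).1 (hMS hJ)).1
    exact hmeas b hb J hJb
  -- the total measure of the stopping sets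
  have hmass : ∑ J ∈ M, μ J ≤ (1 / 2) * μ T := by
    have h1 : (K : ℝ≥0∞) * ∑ J ∈ M, μ J
        ≤ ∑ b ∈ B, μ (⋃ J ∈ {J ∈ (P b : Set (Set X)) | J ⊆ T}, J) := by
      set U : β → Set X := fun b => ⋃ J ∈ {J ∈ (P b : Set (Set X)) | J ⊆ T}, J with hU
      have hUmeas : ∀ b ∈ B, MeasurableSet (U b) := by
        intro b hb
        have : U b = ⋃ J ∈ (P b).filter (fun J => J ⊆ T), J := by
          ext x; simp [hU]
        rw [this]
        exact Finset.measurableSet_biUnion _ fun J hJ =>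
          hmeas b hb J (Finset.mem_filter.1 hJ).1
      calc (K : ℝ≥0∞) * ∑ J ∈ M, μ J = ∑ J ∈ M, (K : ℝ≥0∞) * μ J := Finset.mul_sum _ _ _
        _ ≤ ∑ J ∈ M, ∑ b ∈ B, μ (U b ∩ J) := by
            refine Finset.sum_le_sum fun J hJ => ?_
            have hcard : K ≤ (clsA B P T J).card := ((hSmem J).1 (hMS hJ)).2.2
            have hsubB : clsA B P T J ⊆ B := Finset.filter_subset _ _
            calc (K : ℝ≥0∞) * μ J ≤ ((clsA B P T J).card : ℝ≥0∞) * μ J := by
                  gcongr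
              _ = ∑ b ∈ clsA B P T J, μ J := by
                  rw [Finset.sum_const, nsmul_eq_mul]
              _ ≤ ∑ b ∈ clsA B P T J, μ (U b ∩ J) := by
                  refine Finset.sum_le_sum fun b hb => measure_mono fun x hx => ⟨?_, hx⟩
                  obtain ⟨-, J', hJ', h1, h2⟩ := mem_clsA.1 hb
                  simp only [hU, Set.mem_iUnion, exists_prop, Set.mem_ofPred_eq]
                  exact ⟨J', ⟨hJ', h1⟩, h2 hx⟩
              _ ≤ ∑ b ∈ B, μ (U b ∩ J) :=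
                  Finset.sum_le_sum_of_subset hsubB
        _ = ∑ b ∈ B, ∑ J ∈ M, μ (U b ∩ J) := Finset.sum_comm
        _ ≤ ∑ b ∈ B, μ (U b) := by
            refine Finset.sum_le_sum fun b hb => ?_
            rw [← measure_biUnion_finset]
            · apply measure_mono
              intro x hx
              simp only [Set.mem_iUnion] at hx
              obtain ⟨J, hJ, hxJ⟩ := hx
              exact hxJ.1
            · intro J hJ J' hJ' hne
              exact (hMdis J hJ J' hJ' hne).mono Set.inter_subset_right Set.inter_subset_right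
            · exact fun J hJ => (hUmeas b hb).inter (hMmeas J hJ)
    have h2 := sum_measure_union (μ := μ) B P E δ hlam hmeas hE hdis hpop T hT
    have h3 : 2 * ∑ J ∈ M, μ J ≤ μ T := by
      calc 2 * ∑ J ∈ M, μ J ≤ (δ * K) * ∑ J ∈ M, μ J := by gcongr
        _ = δ * (K * ∑ J ∈ M, μ J) := mul_assoc _ _ _
        _ ≤ δ * ∑ b ∈ B, μ (⋃ J ∈ {J ∈ (P b : Set (Set X)) | J ⊆ T}, J) := by gcongr
        _ ≤ μ T := h2
    calc ∑ J ∈ M, μ J = (1 / 2) * (2 * ∑ J ∈ M, μ J) := by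
          rw [← mul_assoc, one_div, ENNReal.inv_mul_cancel (by norm_num) (by norm_num), one_mul]
      _ ≤ (1 / 2) * μ T := by gcongr
  -- the level set is covered
  have hcover : {x ∈ T | n ≤ cnt B P T x} ⊆ ⋃ J ∈ M, {x ∈ J | n - K ≤ cnt B P J x} := by
    rintro x ⟨hxT, hxn⟩
    have hcard : K ≤ (cls B P T x).card := hn.trans hxn
    have hne : (cls B P T x).Nonempty := Finset.card_pos.1 (hK0.trans_le hcard)
    obtain ⟨J, hJP, hJT, hxJ, -, hJC⟩ := exists_bottom hlam (cls B P T x)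
      (Finset.filter_subset _ _) hne T x (fun _ => True) (by
        intro b hb
        obtain ⟨-, J, hJ, h1, h2⟩ := mem_cls.1 hb
        exact ⟨J, hJ, h1, h2, trivial⟩)
    have hJS : J ∈ S := (hSmem J).2 ⟨(hDmem J).2 ⟨hJP, hJT⟩, ⟨x, hxJ⟩,
      hcard.trans (Finset.card_le_card hJC)⟩
    obtain ⟨L, hLM, hJL⟩ := hcov J hJS
    have hxL : x ∈ L := hJL hxJ
    simp only [Set.mem_iUnion, Set.mem_ofPred_eq, exists_prop]
    refine ⟨L, hLM, hxL, ?_⟩
    -- classes not counted by `L` are popular strictly above `L`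
    set C : Finset β := (cls B P T x) \ (cls B P L x) with hC
    have hCK : C.card < K := by
      by_contra hcon
      push Not at hcon
      have hCne : C.Nonempty := Finset.card_pos.1 (hK0.trans_le hcon)
      obtain ⟨J₁, hJ₁P, hJ₁T, hxJ₁, hQ, hJ₁C⟩ := exists_bottom hlam C
        (Finset.sdiff_subset.trans (Finset.filter_subset _ _)) hCne T x
        (fun J' => L ⊆ J' ∧ ¬ J' ⊆ L) (by
          intro b hb
          rw [hC, Finset.mem_sdiff] at hb
          obtain ⟨hbB, J', hJ', h1, h2⟩ := mem_cls.1 hb.1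
          have hnot : ¬ J' ⊆ L := by
            intro hsub
            exact hb.2 (mem_cls.2 ⟨hbB, J', hJ', hsub, h2⟩)
          refine ⟨J', hJ', h1, h2, ?_, hnot⟩
          obtain ⟨⟨c, hc, hLc⟩, -⟩ := (hDmem L).1 ((hSmem L).1 (hMS hLM)).1
          rcases hlam b hbB c hc J' hJ' L hLc with h | h | h
          · exact absurd h hnot
          · exact h
          · exact absurd hxL (Set.disjoint_left.1 h h2))
      have hJ₁S : J₁ ∈ S := (hSmem J₁).2 ⟨(hDmem J₁).2 ⟨hJ₁P, hJ₁T⟩, ⟨x, hxJ₁⟩,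
        hcon.trans (Finset.card_le_card hJ₁C)⟩
      have := hMmax L hLM J₁ hJ₁S hQ.1
      exact hQ.2 this.le
    have hsplit : (cls B P T x).card ≤ C.card + (cls B P L x).card := by
      rw [hC]
      have := Finset.card_sdiff_add_card (cls B P T x) (cls B P L x)
      rw [this]
      exact Finset.card_le_card Finset.subset_union_left
    have hxn' : n ≤ (cls B P T x).card := hxn
    show n - K ≤ (cls B P L x).card
    omega
  calc μ {x ∈ T | n ≤ cnt B P T x}
      ≤ μ (⋃ J ∈ M, {x ∈ J | n - K ≤ cnt B P J x}) := measure_mono hcover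
    _ ≤ ∑ J ∈ M, μ {x ∈ J | n - K ≤ cnt B P J x} := measure_biUnion_finset_le M _
    _ ≤ ∑ J ∈ M, (1 / 2) ^ ((n - K) / K) * μ J := by
        refine Finset.sum_le_sum fun J hJ => ih (n - K) (by omega) J (hMmeas J hJ)
    _ = (1 / 2) ^ ((n - K) / K) * ∑ J ∈ M, μ J := (Finset.mul_sum _ _ _).symm
    _ ≤ (1 / 2) ^ ((n - K) / K) * ((1 / 2) * μ T) := by gcongr
    _ = (1 / 2) ^ (n / K) * μ T := by
        rw [← mul_assoc, ← pow_succ]
        congr 2
        rw [Nat.div_eq_sub_div hK0 hn]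

open Classical in
/-- indexed version of the counting function -/
noncomputable def cntI {κ : Type*} (B : Finset β) (P : β → Finset κ) (I : κ → Set X) (T : Set X)
    (x : X) : ℕ :=
  (B.filter (fun b => ∃ J ∈ P b, I J ⊆ T ∧ x ∈ I J)).card

/-- **John-Nirenberg for popular classes**, indexed version with real constants:
`I J` (`J ∈ P b`) laminar, `δ * μ (I J) ≤ μ (E b ∩ I J)`, `E b` disjoint. -/
theorem jn_idx {κ : Type*} {μ : Measure X} (B : Finset β) (P : β → Finset κ) (I : κ → Set X)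
    (E : β → Set X) (δ : ℝ)
    (hlam : ∀ b ∈ B, ∀ b' ∈ B, ∀ J ∈ P b, ∀ J' ∈ P b', Nd (I J) (I J'))
    (hmeas : ∀ b ∈ B, ∀ J ∈ P b, MeasurableSet (I J))
    (hE : ∀ b ∈ B, MeasurableSet (E b))
    (hdis : ∀ b ∈ B, ∀ b' ∈ B, b ≠ b' → Disjoint (E b) (E b'))
    (hpop : ∀ b ∈ B, ∀ J ∈ P b, ENNReal.ofReal δ * μ (I J) ≤ μ (E b ∩ I J))
    (K : ℕ) (hK0 : 0 < K) (hK : 2 ≤ δ * K) (n : ℕ) (T : Set X) (hT : MeasurableSet T) :
    μ {x ∈ T | n ≤ cntI B P I T x} ≤ (1 / 2) ^ (n / K) * μ T := by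
  classical
  have key : ∀ x, cntI B P I T x = cnt B (fun b => (P b).image I) T x := by
    intro x
    unfold cntI cnt cls
    congr 1
    ext b
    simp
  have hδ : (2 : ℝ≥0∞) ≤ ENNReal.ofReal δ * (K : ℝ≥0∞) := by
    have hK' : (0 : ℝ) ≤ K := Nat.cast_nonneg K
    have h1 : ENNReal.ofReal 2 ≤ ENNReal.ofReal (δ * K) := ENNReal.ofReal_le_ofReal hK
    rw [ENNReal.ofReal_mul' hK', ENNReal.ofReal_natCast] at h1
    simpa using h1
  have := jn (μ := μ) B (fun b => (P b).image I) E (ENNReal.ofReal δ)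
    (by
      intro b hb b' hb' J hJ J' hJ'
      obtain ⟨j, hj, rfl⟩ := Finset.mem_image.1 hJ
      obtain ⟨j', hj', rfl⟩ := Finset.mem_image.1 hJ'
      exact hlam b hb b' hb' j hj j' hj')
    (by
      intro b hb J hJ
      obtain ⟨j, hj, rfl⟩ := Finset.mem_image.1 hJ
      exact hmeas b hb j hj)
    hE hdis
    (by
      intro b hb J hJ
      obtain ⟨j, hj, rfl⟩ := Finset.mem_image.1 hJ
      exact hpop b hb j hj)
    K hK0 hδ n T hT
  simpa only [key] using this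

end Vale.Agent.P112.H30
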