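import Mathlib

/-!
# Marcinkiewicz interpolation for a positive operator with restricted type at 2

`g i` measurable, `∫ g i ≤ lam * w i`, `∫ (∑_{S} g i)^2 ≤ C * ∑_{S} w i` for all `S`.
Then for `1 < p < 2`, `b i ≥ 0`:
`∫ (∑ b i g i)^p ≤ c_p lam^(2-p) C^(p-1) ∑ b i ^ p w i`, `c_p = 128 / ((p-1)^2 (2-p))`.
-/

open MeasureTheory Set
open scoped ENNReal NNReal

namespace Vale.Agent.P112.H30

variable {X ι : Type*} [MeasurableSpace X]

/-- log-convexity: `∫ G^r ≤ (∫ G)^(2-r) (∫ G^2)^(r-1)` for `1 ≤ r ≤ 2`. -/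
theorem lint_interp {ν : Measure X} {G : X → ℝ≥0∞} (hG : Measurable G) {r : ℝ} (h1 : 1 ≤ r)
    (h2 : r ≤ 2) : ∫⁻ x, G x ^ r ∂ν ≤ (∫⁻ x, G x ∂ν) ^ (2 - r) * (∫⁻ x, G x ^ 2 ∂ν) ^ (r - 1) := by
  have h := ENNReal.lintegral_mul_norm_pow_le (μ := ν) (f := G) (g := fun x => G x ^ 2)
    hG.aemeasurable (hG.pow_const 2).aemeasurable (p := 2 - r) (q := r - 1)
    (by linarith) (by linarith) (by ring)
  refine le_trans (le_of_eq ?_) h
  refine lintegral_congr fun x => ?_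
  rw [← ENNReal.rpow_natCast (G x) 2, ← ENNReal.rpow_mul,
    ← ENNReal.rpow_add_of_nonneg _ _ (by linarith) (by push_cast; linarith)]
  congr 1
  push_cast
  ring

/-- the bound at `r` in `[1,2]` from the two end points -/
theorem restr_bound {ν : Measure X} {G : X → ℝ≥0∞} (hG : Measurable G) {lam C W : ℝ≥0∞}
    (h1 : ∫⁻ x, G x ∂ν ≤ lam * W) (h2 : ∫⁻ x, G x ^ 2 ∂ν ≤ C * W) {r : ℝ} (hr1 : 1 ≤ r)
    (hr2 : r ≤ 2) : ∫⁻ x, G x ^ r ∂ν ≤ lam ^ (2 - r) * C ^ (r - 1) * W := by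
  refine (lint_interp hG hr1 hr2).trans ?_
  calc (∫⁻ x, G x ∂ν) ^ (2 - r) * (∫⁻ x, G x ^ 2 ∂ν) ^ (r - 1)
      ≤ (lam * W) ^ (2 - r) * (C * W) ^ (r - 1) := by
        gcongr
    _ = lam ^ (2 - r) * C ^ (r - 1) * (W ^ (2 - r) * W ^ (r - 1)) := by
        rw [ENNReal.mul_rpow_of_nonneg _ _ (by linarith), ENNReal.mul_rpow_of_nonneg _ _
          (by linarith)]
        ring
    _ = lam ^ (2 - r) * C ^ (r - 1) * W := by
        rw [← ENNReal.rpow_add_of_nonneg _ _ (by linarith) (by linarith)]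
        have : (2 - r) + (r - 1) = 1 := by ring
        rw [this, ENNReal.rpow_one]

/-- the off-diagonal pairing -/
theorem pair_bound {ν : Measure X} {G H : X → ℝ≥0∞} (hG : Measurable G) (hH : Measurable H)
    {lam C W V : ℝ≥0∞}
    (hG1 : ∫⁻ x, G x ∂ν ≤ lam * W) (hG2 : ∫⁻ x, G x ^ 2 ∂ν ≤ C * W)
    (hH1 : ∫⁻ x, H x ∂ν ≤ lam * V) (hH2 : ∫⁻ x, H x ^ 2 ∂ν ≤ C * V)
    {p θ : ℝ} (hp1 : 1 < p) (hp2 : p < 2) (h1 : 1 / 2 ≤ θ) (h2 : θ < 1) (h3 : 2 - p ≤ θ)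
    (h4 : θ ≤ (3 - p) / 2) :
    ∫⁻ x, G x * H x ^ (p - 1) ∂ν ≤ lam ^ (2 - p) * C ^ (p - 1) * (W ^ θ * V ^ (1 - θ)) := by
  have hθ : 0 < θ := by linarith
  have hθ' : 0 < 1 - θ := by linarith
  set r : ℝ := 1 / θ with hr
  set s : ℝ := (p - 1) / (1 - θ) with hs
  have hrθ : r * θ = 1 := by rw [hr]; field_simp
  have hsθ : s * (1 - θ) = p - 1 := by rw [hs]; field_simp
  have hr1 : 1 ≤ r := by rw [hr, le_div_iff₀ hθ]; linarith
  have hr2 : r ≤ 2 := by rw [hr, div_le_iff₀ hθ]; linarith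
  have hs1 : 1 ≤ s := by rw [hs, le_div_iff₀ hθ']; linarith
  have hs2 : s ≤ 2 := by rw [hs, div_le_iff₀ hθ']; linarith
  have h := ENNReal.lintegral_mul_norm_pow_le (μ := ν) (f := fun x => G x ^ r)
    (g := fun x => H x ^ s) (hG.pow_const r).aemeasurable (hH.pow_const s).aemeasurable
    (p := θ) (q := 1 - θ) hθ.le hθ'.le (by ring)
  have hL : ∫⁻ x, (G x ^ r) ^ θ * (H x ^ s) ^ (1 - θ) ∂ν = ∫⁻ x, G x * H x ^ (p - 1) ∂ν := by
    refine lintegral_congr fun x => ?_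
    rw [← ENNReal.rpow_mul, ← ENNReal.rpow_mul, hrθ, hsθ, ENNReal.rpow_one]
  rw [hL] at h
  refine h.trans ?_
  have e1 : (2 - r) * θ + (2 - s) * (1 - θ) = 2 - p := by
    have : (2 - r) * θ + (2 - s) * (1 - θ) = 2 - r * θ - s * (1 - θ) := by ring
    rw [this, hrθ, hsθ]; ring
  have e2 : (r - 1) * θ + (s - 1) * (1 - θ) = p - 1 := by
    have : (r - 1) * θ + (s - 1) * (1 - θ) = r * θ + s * (1 - θ) - 1 := by ring
    rw [this, hrθ, hsθ]; ring
  calc (∫⁻ x, G x ^ r ∂ν) ^ θ * (∫⁻ x, H x ^ s ∂ν) ^ (1 - θ)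
      ≤ (lam ^ (2 - r) * C ^ (r - 1) * W) ^ θ * (lam ^ (2 - s) * C ^ (s - 1) * V) ^ (1 - θ) := by
        gcongr
        · exact restr_bound hG hG1 hG2 hr1 hr2
        · exact restr_bound hH hH1 hH2 hs1 hs2
    _ = (lam ^ ((2 - r) * θ) * lam ^ ((2 - s) * (1 - θ))) *
          (C ^ ((r - 1) * θ) * C ^ ((s - 1) * (1 - θ))) * (W ^ θ * V ^ (1 - θ)) := by
        rw [ENNReal.mul_rpow_of_nonneg _ _ hθ.le, ENNReal.mul_rpow_of_nonneg _ _ hθ.le,
          ENNReal.mul_rpow_of_nonneg _ _ hθ'.le, ENNReal.mul_rpow_of_nonneg _ _ hθ'.le,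
          ← ENNReal.rpow_mul, ← ENNReal.rpow_mul, ← ENNReal.rpow_mul, ← ENNReal.rpow_mul]
        ring
    _ = lam ^ (2 - p) * C ^ (p - 1) * (W ^ θ * V ^ (1 - θ)) := by
        rw [← ENNReal.rpow_add_of_nonneg _ _ (by nlinarith) (by nlinarith), e1,
          ← ENNReal.rpow_add_of_nonneg _ _ (by nlinarith) (by nlinarith), e2]

/-- `(∑ x_k)^p ≤ ∑_{k,l} x_k x_l^(p-1)` for `1 ≤ p ≤ 2`. -/
theorem sum_rpow_le {κ : Type*} (Z : Finset κ) (x : κ → ℝ≥0∞) {p : ℝ} (h1 : 1 < p)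
    (h2 : p < 2) : (∑ k ∈ Z, x k) ^ p ≤ ∑ k ∈ Z, ∑ l ∈ Z, x k * x l ^ (p - 1) := by
  have h : (∑ k ∈ Z, x k) ^ (p - 1) ≤ ∑ l ∈ Z, x l ^ (p - 1) := by
    classical
    induction Z using Finset.induction_on with
    | empty => simp [ENNReal.zero_rpow_of_pos (by linarith : 0 < p - 1)]
    | insert a s ha ih =>
      rw [Finset.sum_insert ha, Finset.sum_insert ha]
      exact (ENNReal.rpow_add_le_add_rpow _ _ (by linarith) (by linarith)).trans (by gcongr)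
  calc (∑ k ∈ Z, x k) ^ p = (∑ k ∈ Z, x k) ^ (1 : ℝ) * (∑ k ∈ Z, x k) ^ (p - 1) := by
        rw [← ENNReal.rpow_add_of_nonneg _ _ (by norm_num) (by linarith)]
        congr 1; ring
    _ ≤ (∑ k ∈ Z, x k) * ∑ l ∈ Z, x l ^ (p - 1) := by
        rw [ENNReal.rpow_one]; gcongr
    _ = ∑ k ∈ Z, ∑ l ∈ Z, x k * x l ^ (p - 1) := by
        rw [Finset.sum_mul_sum]

/-- two-sided geometric sum over a finite set of integers -/
theorem geom_sum_int (Z : Finset ℤ) (q : ℝ≥0∞) (k : ℤ) :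
    ∑ l ∈ Z, q ^ (k - l).natAbs ≤ 2 * (1 - q)⁻¹ := by
  classical
  rw [← Finset.sum_filter_add_sum_filter_not Z (fun l => l ≤ k), two_mul]
  have key : ∀ (Y : Finset ℤ), (∀ l ∈ Y, ∀ l' ∈ Y, (k - l).natAbs = (k - l').natAbs → l = l') →
      ∑ l ∈ Y, q ^ (k - l).natAbs ≤ (1 - q)⁻¹ := by
    intro Y hY
    rw [← ENNReal.tsum_geometric q]
    have : ∑ l ∈ Y, q ^ (k - l).natAbs = ∑ n ∈ Y.image (fun l => (k - l).natAbs), q ^ n := by
      rw [Finset.sum_image]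
      intro l hl l' hl' h
      exact hY l hl l' hl' h
    rw [this]
    exact ENNReal.sum_le_tsum _
  gcongr
  · apply key
    intro l hl l' hl' h
    rw [Finset.mem_filter] at hl hl'
    omega
  · apply key
    intro l hl l' hl' h
    rw [Finset.mem_filter] at hl hl'
    omega

/-- `(1 - 2^(-η))⁻¹ ≤ 2 / η` for `0 < η ≤ 1`. -/
theorem inv_one_sub_le {η : ℝ} (h0 : 0 < η) (h1 : η ≤ 1) :
    (1 - (2 : ℝ≥0∞) ^ (-η))⁻¹ ≤ ENNReal.ofReal (2 / η) := by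
  have hreal : (2 : ℝ) ^ (-η) ≤ 1 - η / 2 := by
    have hconv := rpow_one_add_le_one_add_mul_self (s := -(1 / 2 : ℝ)) (by norm_num)
      (p := η) h0.le h1
    have e : (2 : ℝ) ^ (-η) = (1 + -(1 / 2 : ℝ)) ^ η := by
      rw [Real.rpow_neg (by norm_num), ← Real.inv_rpow (by norm_num)]
      norm_num
    rw [e]
    linarith
  have hE : (2 : ℝ≥0∞) ^ (-η) = ENNReal.ofReal ((2 : ℝ) ^ (-η)) := by
    rw [← ENNReal.ofReal_rpow_of_pos (by norm_num)]
    norm_num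
  rw [hE, ← ENNReal.ofReal_one, ← ENNReal.ofReal_sub _ (by positivity),
    ← ENNReal.ofReal_inv_of_pos (by linarith)]
  apply ENNReal.ofReal_le_ofReal
  rw [inv_le_comm₀ (by linarith) (by positivity)]
  rw [inv_div]
  linarith

/-- `u^θ v^(1-θ) ≤ u + v` -/
theorem young_weak (u v : ℝ≥0∞) {θ : ℝ} (h0 : 0 ≤ θ) (h1 : θ ≤ 1) :
    u ^ θ * v ^ (1 - θ) ≤ u + v := by
  calc u ^ θ * v ^ (1 - θ) ≤ (max u v) ^ θ * (max u v) ^ (1 - θ) := by
        gcongr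
        · exact le_max_left _ _
        · exact le_max_right _ _
    _ = max u v := by
        rw [← ENNReal.rpow_add_of_nonneg _ _ h0 (by linarith)]
        have : θ + (1 - θ) = 1 := by ring
        rw [this, ENNReal.rpow_one]
    _ ≤ u + v := max_le le_self_add le_add_self

/-- one pair of levels -/
theorem level_pair {p η : ℝ} (k l : ℤ) (W V : ℝ≥0∞)
    {θ : ℝ} (h0 : 0 ≤ θ) (h1 : θ ≤ 1) (hθ : ((k : ℝ) - l) * (1 - p * θ) ≤ -(|(k : ℝ) - l| * η)) :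
    (2 : ℝ≥0∞) ^ (k : ℝ) * (2 : ℝ≥0∞) ^ ((l : ℝ) * (p - 1)) * (W ^ θ * V ^ (1 - θ)) ≤
      ((2 : ℝ≥0∞) ^ ((k : ℝ) * p) * W + (2 : ℝ≥0∞) ^ ((l : ℝ) * p) * V) *
        ((2 : ℝ≥0∞) ^ (-η)) ^ (k - l).natAbs := by
  have h2 : (2 : ℝ≥0∞) ≠ 0 := by norm_num
  have h2' : (2 : ℝ≥0∞) ≠ ∞ := by norm_num
  have hu : ((2 : ℝ≥0∞) ^ ((k : ℝ) * p) * W) ^ θ = 2 ^ ((k : ℝ) * p * θ) * W ^ θ := by
    rw [ENNReal.mul_rpow_of_nonneg _ _ h0, ← ENNReal.rpow_mul]
  have hv : ((2 : ℝ≥0∞) ^ ((l : ℝ) * p) * V) ^ (1 - θ) =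
      2 ^ ((l : ℝ) * p * (1 - θ)) * V ^ (1 - θ) := by
    rw [ENNReal.mul_rpow_of_nonneg _ _ (by linarith), ← ENNReal.rpow_mul]
  have hexp : (2 : ℝ≥0∞) ^ (k : ℝ) * (2 : ℝ≥0∞) ^ ((l : ℝ) * (p - 1)) =
      2 ^ ((k : ℝ) * p * θ) * 2 ^ ((l : ℝ) * p * (1 - θ)) *
        2 ^ (((k : ℝ) - l) * (1 - p * θ)) := by
    rw [← ENNReal.rpow_add _ _ h2 h2', ← ENNReal.rpow_add _ _ h2 h2',
      ← ENNReal.rpow_add _ _ h2 h2']
    congr 1
    ring
  have hq : (2 : ℝ≥0∞) ^ (((k : ℝ) - l) * (1 - p * θ)) ≤ ((2 : ℝ≥0∞) ^ (-η)) ^ (k - l).natAbs := by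
    rw [← ENNReal.rpow_natCast, ← ENNReal.rpow_mul]
    apply ENNReal.rpow_le_rpow_of_exponent_le (by norm_num)
    have : (((k - l).natAbs : ℕ) : ℝ) = |(k : ℝ) - l| := by
      rw [Nat.cast_natAbs]; push_cast; rfl
    rw [this]
    linarith
  calc (2 : ℝ≥0∞) ^ (k : ℝ) * (2 : ℝ≥0∞) ^ ((l : ℝ) * (p - 1)) * (W ^ θ * V ^ (1 - θ))
      = ((2 ^ ((k : ℝ) * p * θ) * W ^ θ) * (2 ^ ((l : ℝ) * p * (1 - θ)) * V ^ (1 - θ))) *
          2 ^ (((k : ℝ) - l) * (1 - p * θ)) := by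
        rw [hexp]; ring
    _ = (((2 : ℝ≥0∞) ^ ((k : ℝ) * p) * W) ^ θ * ((2 : ℝ≥0∞) ^ ((l : ℝ) * p) * V) ^ (1 - θ)) *
          2 ^ (((k : ℝ) - l) * (1 - p * θ)) := by rw [hu, hv]
    _ ≤ _ := by
        gcongr
        exact young_weak _ _ h0 h1

/-- **Marcinkiewicz interpolation**, positive operators, restricted type at `2`. -/
theorem marc {ν : Measure X} (s : Finset ι) (g : ι → X → ℝ≥0∞) (hg : ∀ i ∈ s, Measurable (g i))
    (w : ι → ℝ≥0∞) (lam C : ℝ≥0∞)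
    (h1 : ∀ i ∈ s, ∫⁻ x, g i x ∂ν ≤ lam * w i)
    (h2 : ∀ S ⊆ s, ∫⁻ x, (∑ i ∈ S, g i x) ^ 2 ∂ν ≤ C * ∑ i ∈ S, w i)
    {p : ℝ} (hp1 : 1 < p) (hp2 : p < 2) (b : ι → ℝ≥0) :
    ∫⁻ x, (∑ i ∈ s, (b i : ℝ≥0∞) * g i x) ^ p ∂ν ≤
      ENNReal.ofReal (128 / ((p - 1) ^ 2 * (2 - p))) * (lam ^ (2 - p) * C ^ (p - 1)) *
        ∑ i ∈ s, (b i : ℝ≥0∞) ^ p * w i := by
  classical
  set s' : Finset ι := s.filter (fun i => b i ≠ 0) with hs'
  have hs's : s' ⊆ s := Finset.filter_subset _ _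
  set lev : ι → ℤ := fun i => Int.log 2 (b i : ℝ) with hlev
  set Z : Finset ℤ := s'.image lev with hZ
  set S : ℤ → Finset ι := fun k => s'.filter (fun i => lev i = k) with hS
  have hSs : ∀ k, S k ⊆ s := fun k => (Finset.filter_subset _ _).trans hs's
  set G : ℤ → X → ℝ≥0∞ := fun k x => ∑ i ∈ S k, g i x with hG
  set W : ℤ → ℝ≥0∞ := fun k => ∑ i ∈ S k, w i with hW
  have hGm : ∀ k, Measurable (G k) := fun k =>
    Finset.measurable_sum _ fun i hi => hg i (hSs k hi)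
  have hG1 : ∀ k, ∫⁻ x, G k x ∂ν ≤ lam * W k := by
    intro k
    rw [lintegral_finsetSum _ fun i hi => hg i (hSs k hi), Finset.mul_sum]
    exact Finset.sum_le_sum fun i hi => h1 i (hSs k hi)
  have hG2 : ∀ k, ∫⁻ x, G k x ^ 2 ∂ν ≤ C * W k := fun k => h2 _ (hSs k)
  have hbpos : ∀ i ∈ s', (0 : ℝ) < b i := by
    intro i hi
    have := (Finset.mem_filter.1 hi).2
    exact NNReal.coe_pos.2 (pos_iff_ne_zero.2 this)
  have hco : ∀ k : ℤ, (2 : ℝ≥0∞) ^ (k : ℝ) = ENNReal.ofReal ((2 : ℝ) ^ (k : ℤ)) := by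
    intro k
    rw [← Real.rpow_intCast, ← ENNReal.ofReal_rpow_of_pos (by norm_num)]
    norm_num
  have hlo : ∀ i ∈ s', (2 : ℝ≥0∞) ^ (lev i : ℝ) ≤ b i := by
    intro i hi
    rw [hco, ← ENNReal.ofReal_coe_nnreal]
    apply ENNReal.ofReal_le_ofReal
    have := Int.zpow_log_le_self (b := 2) (by norm_num) (hbpos i hi)
    simpa using this
  have hhi : ∀ i ∈ s', (b i : ℝ≥0∞) ≤ 2 * (2 : ℝ≥0∞) ^ (lev i : ℝ) := by
    intro i hi
    have h := Int.lt_zpow_succ_log_self (b := 2) (by norm_num) (b i : ℝ)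
    have h' : (b i : ℝ) ≤ 2 * (2 : ℝ) ^ (lev i) := by
      have e : (((2 : ℕ) : ℝ)) ^ (Int.log 2 (b i : ℝ) + 1) = 2 * (2 : ℝ) ^ (lev i) := by
        rw [hlev]
        push_cast
        rw [zpow_add₀ (by norm_num : (2 : ℝ) ≠ 0), zpow_one]
        ring
      rw [e] at h
      exact h.le
    rw [hco, ← ENNReal.ofReal_coe_nnreal]
    have e2 : (2 : ℝ≥0∞) = ENNReal.ofReal 2 := by norm_num
    rw [e2, ← ENNReal.ofReal_mul (by norm_num)]
    exact ENNReal.ofReal_le_ofReal h'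
  -- pointwise decomposition
  have hmaps : ∀ i ∈ s', lev i ∈ Z := fun i hi => Finset.mem_image_of_mem _ hi
  have hpt : ∀ x, ∑ i ∈ s, (b i : ℝ≥0∞) * g i x ≤ 2 * ∑ k ∈ Z, (2 : ℝ≥0∞) ^ (k : ℝ) * G k x := by
    intro x
    have e1 : ∑ i ∈ s, (b i : ℝ≥0∞) * g i x = ∑ i ∈ s', (b i : ℝ≥0∞) * g i x := by
      rw [hs', Finset.sum_filter]
      refine Finset.sum_congr rfl fun i _ => ?_
      by_cases hb : b i = 0
      · simp [hb]
      · simp [hb]
    rw [e1, ← Finset.sum_fiberwise_of_maps_to hmaps, Finset.mul_sum]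
    refine Finset.sum_le_sum fun k _ => ?_
    rw [← mul_assoc, hG]
    simp only
    rw [Finset.mul_sum]
    refine Finset.sum_le_sum fun i hi => ?_
    have hi' := Finset.mem_filter.1 hi
    have := hhi i hi'.1
    rw [hi'.2] at this
    gcongr
  -- parameters
  set η : ℝ := (p - 1) ^ 2 * (2 - p) / 4 with hη
  have hp1' : 0 < p - 1 := by linarith
  have hp2' : 0 < 2 - p := by linarith
  have hη0 : 0 < η := by positivity
  have hη1 : η ≤ 1 := by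
    rw [hη]; nlinarith [mul_pos hp1' hp2', mul_pos (mul_pos hp1' hp1') hp2']
  have hppos : 0 < p := by linarith
  set A : ℝ≥0∞ := lam ^ (2 - p) * C ^ (p - 1) with hA
  set u : ℤ → ℝ≥0∞ := fun k => (2 : ℝ≥0∞) ^ ((k : ℝ) * p) * W k with hu
  set q : ℝ≥0∞ := (2 : ℝ≥0∞) ^ (-η) with hq
  have ηa : p * η ≤ (2 - p) / 2 := by
    rw [hη]
    nlinarith [mul_pos hp1' hp2', mul_pos (mul_pos hp1' hp1') hp2',
      mul_pos (mul_pos (mul_pos hp1' hp1') hp2') hppos]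
  have ηb : p * η ≤ (p - 1) ^ 2 := by
    rw [hη]
    have h0 : 0 < (p - 1) ^ 2 := by positivity
    have : p * ((p - 1) ^ 2 * (2 - p) / 4) = (p - 1) ^ 2 * (p * (2 - p) / 4) := by ring
    rw [this]
    have : p * (2 - p) / 4 ≤ 1 := by nlinarith
    nlinarith
  have ηc : p * η ≤ (p - 1) * (2 - p) / 2 := by
    rw [hη]
    have h0 : 0 < (p - 1) * (2 - p) := by positivity
    have e : p * ((p - 1) ^ 2 * (2 - p) / 4) = (p - 1) * (2 - p) * (p * (p - 1) / 4) := by ring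
    rw [e]
    have : p * (p - 1) / 4 ≤ 1 / 2 := by nlinarith
    nlinarith
  have ηd : p * η < p - 1 := by nlinarith
  have hpair : ∀ k l : ℤ, (2 : ℝ≥0∞) ^ (k : ℝ) * (2 : ℝ≥0∞) ^ ((l : ℝ) * (p - 1)) *
      ∫⁻ x, G k x * G l x ^ (p - 1) ∂ν ≤ A * ((u k + u l) * q ^ (k - l).natAbs) := by
    intro k l
    obtain ⟨θ, hθ0, hθ1, hθ2, hθ3, hθ4⟩ : ∃ θ : ℝ, 1 / 2 ≤ θ ∧ θ < 1 ∧ 2 - p ≤ θ ∧
        θ ≤ (3 - p) / 2 ∧ ((k : ℝ) - l) * (1 - p * θ) ≤ -(|(k : ℝ) - l| * η) := by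
      have hpη : η ≤ p * η := by nlinarith
      rcases le_total (l : ℝ) (k : ℝ) with hkl | hkl
      · refine ⟨1 / p + η, ?_, ?_, ?_, ?_, ?_⟩
        · have : 1 / 2 ≤ 1 / p := one_div_le_one_div_of_le hppos hp2.le
          linarith
        · have : 1 / p + η < 1 := by
            rw [← sub_pos]
            have e : 1 - (1 / p + η) = (p - 1 - p * η) / p := by field_simp; ring
            rw [e]
            exact div_pos (by linarith) hppos
          exact this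
        · have e : 1 / p + η - (2 - p) = ((p - 1) ^ 2 + p * η) / p := by field_simp; ring
          have : 0 ≤ 1 / p + η - (2 - p) := by rw [e]; positivity
          linarith
        · have e : (3 - p) / 2 - (1 / p + η) = ((p - 1) * (2 - p) / 2 - p * η) / p := by
            field_simp; ring
          have : 0 ≤ (3 - p) / 2 - (1 / p + η) := by
            rw [e]; exact div_nonneg (by linarith) hppos.le
          linarith
        · have e : 1 - p * (1 / p + η) = -(p * η) := by field_simp; ring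
          rw [e, abs_of_nonneg (by linarith)]
          nlinarith
      · refine ⟨1 / p - η, ?_, ?_, ?_, ?_, ?_⟩
        · have e : 1 / p - η - 1 / 2 = ((2 - p) / 2 - p * η) / p := by field_simp; ring
          have : 0 ≤ 1 / p - η - 1 / 2 := by
            rw [e]; exact div_nonneg (by linarith) hppos.le
          linarith
        · have : 1 / p < 1 := by rw [div_lt_one hppos]; exact hp1
          linarith
        · have e : 1 / p - η - (2 - p) = ((p - 1) ^ 2 - p * η) / p := by field_simp; ring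
          have : 0 ≤ 1 / p - η - (2 - p) := by
            rw [e]; exact div_nonneg (by linarith) hppos.le
          linarith
        · have e : (3 - p) / 2 - (1 / p - η) = ((p - 1) * (2 - p) / 2 + p * η) / p := by
            field_simp; ring
          have : 0 ≤ (3 - p) / 2 - (1 / p - η) := by
            rw [e]; positivity
          linarith
        · have e : 1 - p * (1 / p - η) = p * η := by field_simp; ring
          rw [e, abs_of_nonpos (by linarith)]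
          nlinarith
    calc (2 : ℝ≥0∞) ^ (k : ℝ) * (2 : ℝ≥0∞) ^ ((l : ℝ) * (p - 1)) *
          ∫⁻ x, G k x * G l x ^ (p - 1) ∂ν
        ≤ (2 : ℝ≥0∞) ^ (k : ℝ) * (2 : ℝ≥0∞) ^ ((l : ℝ) * (p - 1)) *
            (A * (W k ^ θ * W l ^ (1 - θ))) := by
          gcongr
          exact pair_bound (hGm k) (hGm l) (hG1 k) (hG2 k) (hG1 l) (hG2 l) hp1 hp2 hθ0 hθ1 hθ2 hθ3
      _ = A * ((2 : ℝ≥0∞) ^ (k : ℝ) * (2 : ℝ≥0∞) ^ ((l : ℝ) * (p - 1)) *
            (W k ^ θ * W l ^ (1 - θ))) := by ring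
      _ ≤ A * ((u k + u l) * q ^ (k - l).natAbs) := by
          refine mul_le_mul' le_rfl ?_
          exact level_pair k l (W k) (W l) (by linarith) hθ1.le hθ4
  -- the sum over pairs
  have hsum : ∑ k ∈ Z, ∑ l ∈ Z, (u k + u l) * q ^ (k - l).natAbs ≤
      4 * (1 - q)⁻¹ * ∑ k ∈ Z, u k := by
    have e : ∑ k ∈ Z, ∑ l ∈ Z, (u k + u l) * q ^ (k - l).natAbs =
        ∑ k ∈ Z, u k * ∑ l ∈ Z, q ^ (k - l).natAbs +
          ∑ l ∈ Z, u l * ∑ k ∈ Z, q ^ (l - k).natAbs := by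
      simp_rw [add_mul, Finset.sum_add_distrib, Finset.mul_sum]
      congr 1
      rw [Finset.sum_comm]
      refine Finset.sum_congr rfl fun l _ => Finset.sum_congr rfl fun k _ => ?_
      rw [← Int.natAbs_neg (k - l)]
      congr 3
      ring
    rw [e]
    have hb : ∑ k ∈ Z, u k * ∑ l ∈ Z, q ^ (k - l).natAbs ≤ ∑ k ∈ Z, u k * (2 * (1 - q)⁻¹) :=
      Finset.sum_le_sum fun k _ => by gcongr; exact geom_sum_int Z q k
    calc _ ≤ ∑ k ∈ Z, u k * (2 * (1 - q)⁻¹) + ∑ k ∈ Z, u k * (2 * (1 - q)⁻¹) :=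
          add_le_add hb hb
      _ = 4 * (1 - q)⁻¹ * ∑ k ∈ Z, u k := by
          rw [← Finset.sum_mul]; ring
  have huS : ∑ k ∈ Z, u k ≤ ∑ i ∈ s, (b i : ℝ≥0∞) ^ p * w i := by
    calc ∑ k ∈ Z, u k ≤ ∑ k ∈ Z, ∑ i ∈ s' with lev i = k, (b i : ℝ≥0∞) ^ p * w i := by
          refine Finset.sum_le_sum fun k _ => ?_
          rw [hu]
          simp only [hW]
          rw [Finset.mul_sum]
          refine Finset.sum_le_sum fun i hi => ?_
          have hi' := Finset.mem_filter.1 hi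
          have := hlo i hi'.1
          rw [hi'.2] at this
          rw [ENNReal.rpow_mul]
          gcongr
      _ = ∑ i ∈ s', (b i : ℝ≥0∞) ^ p * w i := Finset.sum_fiberwise_of_maps_to hmaps _
      _ ≤ ∑ i ∈ s, (b i : ℝ≥0∞) ^ p * w i := Finset.sum_le_sum_of_subset hs's
  calc ∫⁻ x, (∑ i ∈ s, (b i : ℝ≥0∞) * g i x) ^ p ∂ν
      ≤ ∫⁻ x, 4 * ∑ k ∈ Z, ∑ l ∈ Z, ((2 : ℝ≥0∞) ^ (k : ℝ) * G k x) *
          ((2 : ℝ≥0∞) ^ (l : ℝ) * G l x) ^ (p - 1) ∂ν := by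
        apply lintegral_mono
        intro x
        calc (∑ i ∈ s, (b i : ℝ≥0∞) * g i x) ^ p
            ≤ (2 * ∑ k ∈ Z, (2 : ℝ≥0∞) ^ (k : ℝ) * G k x) ^ p := by
              gcongr
              exact hpt x
          _ = 2 ^ p * (∑ k ∈ Z, (2 : ℝ≥0∞) ^ (k : ℝ) * G k x) ^ p :=
              ENNReal.mul_rpow_of_nonneg _ _ hppos.le
          _ ≤ 4 * _ := by
              gcongr
              · calc (2 : ℝ≥0∞) ^ p ≤ 2 ^ (2 : ℝ) :=
                      ENNReal.rpow_le_rpow_of_exponent_le (by norm_num) hp2.le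
                  _ = 4 := by norm_num
              · exact sum_rpow_le Z _ hp1 hp2
    _ = 4 * ∑ k ∈ Z, ∑ l ∈ Z, ((2 : ℝ≥0∞) ^ (k : ℝ) * (2 : ℝ≥0∞) ^ ((l : ℝ) * (p - 1)) *
          ∫⁻ x, G k x * G l x ^ (p - 1) ∂ν) := by
        rw [lintegral_const_mul]
        · congr 1
          rw [lintegral_finsetSum]
          · refine Finset.sum_congr rfl fun k _ => ?_
            rw [lintegral_finsetSum]
            · refine Finset.sum_congr rfl fun l _ => ?_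
              rw [← lintegral_const_mul (f := fun x => G k x * G l x ^ (p - 1)) _
                ((hGm k).mul ((hGm l).pow_const _))]
              refine lintegral_congr fun x => ?_
              rw [ENNReal.mul_rpow_of_nonneg _ _ hp1'.le, ← ENNReal.rpow_mul]
              ring
            · intro l _
              exact ((hGm k).const_mul _).mul (((hGm l).const_mul _).pow_const _)
          · intro k _
            exact Finset.measurable_sum _ fun l _ =>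
              ((hGm k).const_mul _).mul (((hGm l).const_mul _).pow_const _)
        · exact Finset.measurable_sum _ fun k _ => Finset.measurable_sum _ fun l _ =>
              ((hGm k).const_mul _).mul (((hGm l).const_mul _).pow_const _)
    _ ≤ 4 * ∑ k ∈ Z, ∑ l ∈ Z, A * ((u k + u l) * q ^ (k - l).natAbs) := by
        exact mul_le_mul' le_rfl
          (Finset.sum_le_sum fun k _ => Finset.sum_le_sum fun l _ => hpair k l)
    _ = 4 * (A * ∑ k ∈ Z, ∑ l ∈ Z, (u k + u l) * q ^ (k - l).natAbs) := by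
        simp_rw [Finset.mul_sum]
    _ ≤ 4 * (A * (4 * (1 - q)⁻¹ * ∑ k ∈ Z, u k)) := by gcongr
    _ ≤ 4 * (A * (4 * ENNReal.ofReal (2 / η) * ∑ i ∈ s, (b i : ℝ≥0∞) ^ p * w i)) := by
        gcongr
        exact inv_one_sub_le hη0 hη1
    _ = ENNReal.ofReal (128 / ((p - 1) ^ 2 * (2 - p))) * A *
          ∑ i ∈ s, (b i : ℝ≥0∞) ^ p * w i := by
        have e : (128 / ((p - 1) ^ 2 * (2 - p))) = 16 * (2 / η) := by
          rw [hη]; field_simp; norm_num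
        rw [e, ENNReal.ofReal_mul (by norm_num)]
        have : ENNReal.ofReal 16 = 16 := by norm_num
        rw [this]
        ring

/-- set version: `R i` measurable sets, `F` measurable. -/
theorem marc_sets {μ : Measure X} (s : Finset ι) (R : ι → Set X)
    (hR : ∀ i ∈ s, MeasurableSet (R i)) (F : Set X) (lam C : ℝ≥0∞)
    (h1 : ∀ i ∈ s, μ (R i ∩ F) ≤ lam * μ (R i))
    (h2 : ∀ S ⊆ s, ∫⁻ x in F, (∑ i ∈ S, (R i).indicator (1 : X → ℝ≥0∞) x) ^ 2 ∂μ ≤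
      C * ∑ i ∈ S, μ (R i))
    {p : ℝ} (hp1 : 1 < p) (hp2 : p < 2) (b : ι → ℝ≥0) :
    ∫⁻ x in F, (∑ i ∈ s, (b i : ℝ≥0∞) * (R i).indicator (1 : X → ℝ≥0∞) x) ^ p ∂μ ≤
      ENNReal.ofReal (128 / ((p - 1) ^ 2 * (2 - p))) * (lam ^ (2 - p) * C ^ (p - 1)) *
        ∑ i ∈ s, (b i : ℝ≥0∞) ^ p * μ (R i) := by
  refine marc (ν := μ.restrict F) s (fun i => (R i).indicator (1 : X → ℝ≥0∞))
    (fun i hi => measurable_one.indicator (hR i hi)) (fun i => μ (R i)) lam C ?_ h2 hp1 hp2 b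
  intro i hi
  rw [lintegral_indicator_one (hR i hi), Measure.restrict_apply (hR i hi)]
  exact h1 i hi

end Vale.Agent.P112.H30
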